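import Vale.Agent.Lib.P042Rank.Core

/-!
# Sets without square differences: the exponent 0.756

For every `N` there is a subset of `[1, N]` with at least `c * N ^ 0.756` elements, no two of which
differ by a perfect square `n ^ 2`, `n ≥ 1`.
-/

namespace Vale.Agent.Results.P042.SquareLower

open Vale.Agent.Lib.P042Rank

theorem c3 : Rk (3 ^ 2) 2 (2 * 3) :=
  Rk.free (by norm_num) (Nat.Prime.prime (by norm_num)).squarefree
    (rk_of_chk (M := 3) (T := [[1], [0]]) (by decide) (by decide))

theorem c7 : Rk (7 ^ 2) 3 (3 * 7) :=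
  Rk.free (by norm_num) (Nat.Prime.prime (by norm_num)).squarefree
    (rk_of_chk (M := 7) (T := [[2], [1], [0]]) (by decide) (by decide))

theorem c11 : Rk (11 ^ 2) 4 (4 * 11) :=
  Rk.free (by norm_num) (Nat.Prime.prime (by norm_num)).squarefree
    (rk_of_chk (M := 11) (T := [[5], [4], [1], [0]]) (by decide) (by decide))

theorem c19 : Rk (19 ^ 2) 5 (5 * 19) :=
  Rk.free (by norm_num) (Nat.Prime.prime (by norm_num)).squarefree
    (rk_of_chk (M := 19) (T := [[5], [7], [17], [1], [0]]) (by decide) (by decide))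

theorem c31 : Rk (31 ^ 2) 7 (7 * 31) :=
  Rk.free (by norm_num) (Nat.Prime.prime (by norm_num)).squarefree
    (rk_of_chk (M := 31) (T := [[10], [9], [2], [5], [8], [1], [0]]) (by decide) (by decide))

theorem c43 : Rk (43 ^ 2) 7 (7 * 43) :=
  Rk.free (by norm_num) (Nat.Prime.prime (by norm_num)).squarefree
    (rk_of_chk (M := 43) (T := [[11], [14], [41], [16], [10], [1], [0]]) (by decide) (by decide))

theorem c59 : Rk (59 ^ 2) 9 (9 * 59) :=
  Rk.free (by norm_num) (Nat.Prime.prime (by norm_num)).squarefree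
    (rk_of_chk (M := 59) (T := [[29], [20], [26], [4], [22], [17], [28], [1], [0]]) (by decide) (by decide))

theorem c71 : Rk (71 ^ 2) 9 (9 * 71) :=
  Rk.free (by norm_num) (Nat.Prime.prime (by norm_num)).squarefree
    (rk_of_chk (M := 71) (T := [[38], [49], [9], [30], [6], [20], [37], [1], [0]]) (by decide) (by decide))

theorem c103 : Rk (103 ^ 2) 11 (11 * 103) :=
  Rk.free (by norm_num) (Nat.Prime.prime (by norm_num)).squarefree
    (rk_of_chk (M := 103) (T := [[19], [93], [17], [61], [2], [92], [59], [29], [64], [1], [0]]) (by decide) (by decide))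

theorem c115 : Rk (115 ^ 2) 6 (12 * 115) :=
  Rk.free (by norm_num) (by
      rw [show (115 : ℕ) = 5 * 23 by norm_num, Nat.squarefree_mul (by norm_num)]
      exact ⟨(Nat.Prime.prime (by norm_num)).squarefree, (Nat.Prime.prime (by norm_num)).squarefree⟩)
    (rk_of_chk (M := 115) (T := [[28, 96], [88, 110], [39, 101], [0, 72], [33, 106], [47, 84]])
      (by decide) (by decide))

theorem c4 : Rk (4 ^ 2) 6 10 :=
  rk_of_chk (M := 16) (T := [[5, 13], [12], [8], [4, 7], [3], [2, 10, 15]]) (by decide) (by decide)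

/-- For every `N ≥ 1` there is `A ⊆ [1, N]` with `|A| ≥ c * N ^ (189/250)`, `189/250 = 0.756`, such that
no difference of two distinct elements of `A` is a perfect square. -/
theorem result : ∃ c : ℝ, 0 < c ∧ ∀ N : ℕ, 1 ≤ N →
    ∃ A : Finset ℤ, A ⊆ Finset.Icc 1 (N : ℤ) ∧
      (∀ a ∈ A, ∀ b ∈ A, ∀ n : ℤ, a - b = n ^ 2 → a = b) ∧
      c * (N : ℝ) ^ ((189 : ℝ) / 250) ≤ (A.card : ℝ) := by
  have b0 := Rk.block (a := 26) (B := 2 ^ 26) (by norm_num) c3 (by norm_num)
  have b1 := Rk.block (a := 16) (B := 2 ^ 26) (by norm_num) c7 (by norm_num)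
  have b2 := Rk.block (a := 13) (B := 2 ^ 26) (by norm_num) c11 (by norm_num)
  have b3 := Rk.block (a := 11) (B := 2 ^ 26) (by norm_num) c19 (by norm_num)
  have b4 := Rk.block (a := 9) (B := 2 ^ 26) (by norm_num) c31 (by norm_num)
  have b5 := Rk.block (a := 9) (B := 2 ^ 26) (by norm_num) c43 (by norm_num)
  have b6 := Rk.block (a := 8) (B := 2 ^ 26) (by norm_num) c59 (by norm_num)
  have b7 := Rk.block (a := 8) (B := 2 ^ 26) (by norm_num) c71 (by norm_num)
  have b8 := Rk.block (a := 7) (B := 2 ^ 26) (by norm_num) c103 (by norm_num)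
  have b9 := Rk.block (a := 10) (B := 2 ^ 26) (by norm_num) c115 (by norm_num)
  have b10 := Rk.block (a := 10) (B := 2 ^ 26) (by norm_num) c4 (by norm_num)
  have j1 := Rk.join b0 b1 (by norm_num) (by norm_num) (by norm_num)
  have j2 := Rk.join j1 b2 (by norm_num) (by norm_num) (by norm_num)
  have j3 := Rk.join j2 b3 (by norm_num) (by norm_num) (by norm_num)
  have j4 := Rk.join j3 b4 (by norm_num) (by norm_num) (by norm_num)
  have j5 := Rk.join j4 b5 (by norm_num) (by norm_num) (by norm_num)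
  have j6 := Rk.join j5 b6 (by norm_num) (by norm_num) (by norm_num)
  have j7 := Rk.join j6 b7 (by norm_num) (by norm_num) (by norm_num)
  have j8 := Rk.join j7 b8 (by norm_num) (by norm_num) (by norm_num)
  have j9 := Rk.join j8 b9 (by norm_num) (by norm_num) (by norm_num)
  have j10 := Rk.join j9 b10 (by norm_num) (by norm_num) (by norm_num)
  obtain ⟨c, hc, h⟩ := growth (p := 189) (q := 250) (by norm_num) (by norm_num) (by norm_num) (by norm_num) j10
    (by norm_num)
  refine ⟨c, hc, fun N hN => ?_⟩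
  obtain ⟨A, hA1, hA2, hA3⟩ := h N hN
  refine ⟨A, hA1, ?_, by exact_mod_cast hA3⟩
  intro a ha b hb n hab
  by_contra hne
  have hn : n ≠ 0 := by
    rintro rfl
    apply hne
    linarith
  refine hA2 a ha b hb n.natAbs (Int.natAbs_pos.2 hn) ?_
  rw [Int.natCast_natAbs, sq_abs]
  exact hab

end Vale.Agent.Results.P042.SquareLower
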